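import Vale.Agent.P200.LPP3.BaseChange

/-!
One, two or three forms in three variables.
-/

namespace Vale.Agent.P200.LPP3

open MvPolynomial Module

variable {K L : Type*} [Field K] [Field L] [Algebra K L]

lemma regList_ofFn {σ : Type*} : ∀ {c : ℕ} (f : Fin c → MvPolynomial σ K),
    (∀ i, Nzd (Ideal.span (f '' Set.Iio i)) (f i)) → RegList ⊥ (List.ofFn f)
  | 0, _, _ => by simp [RegList]
  | c + 1, f, h => by
    rw [List.ofFn_succ', List.concat_eq_append, regList_concat, sup_bot_eq]
    have him : ∀ i : Fin c, f '' Set.Iio i.castSucc =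
        (fun j : Fin c => f j.castSucc) '' Set.Iio i := fun i => by
      rw [← Set.image_image f Fin.castSucc, Fin.image_castSucc_Iio]
    refine ⟨regList_ofFn _ fun i => him i ▸ h i.castSucc, ?_⟩
    have hlast : Ideal.ofList (List.ofFn fun i : Fin c => f i.castSucc) =
        Ideal.span (f '' Set.Iio (Fin.last c)) := by
      rw [Ideal.ofList]
      congr 1
      ext x
      simp only [List.mem_ofFn, Set.mem_ofPred_eq, Set.mem_image, Set.mem_Iio]
      constructor
      · rintro ⟨i, rfl⟩
        exact ⟨i.castSucc, Fin.castSucc_lt_last i, rfl⟩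
      · rintro ⟨j, hj, rfl⟩
        exact ⟨j.castPred hj.ne, by rw [Fin.castSucc_castPred]⟩
    rw [hlast]
    exact h (Fin.last c)

lemma degPart_sup_high {σ : Type*} {J : Ideal (MvPolynomial σ K)} (hJ : HomogI J)
    {G : Set (MvPolynomial σ K)} {d : ℕ}
    (hG : ∀ g ∈ G, g ∈ J ∨ ∃ N, d < N ∧ g.IsHomogeneous N) :
    degPart d (J ⊔ Ideal.span G) = degPart d J := by
  refine le_antisymm (fun u hu => ?_) fun u hu =>
    mem_degPart.2 ⟨(mem_degPart.1 hu).1, Ideal.mem_sup_left (mem_degPart.1 hu).2⟩
  obtain ⟨hu1, hu2⟩ := mem_degPart.1 hu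
  refine mem_degPart.2 ⟨hu1, ?_⟩
  obtain ⟨i, hi, w, hw, rfl⟩ := Submodule.mem_sup.1 hu2
  rw [← homogeneousComponent_eq_self hu1, map_add]
  refine add_mem (hJ i hi _) ?_
  clear hu hu1 hu2 hi
  suffices key : ∀ r, homogeneousComponent d (w * r) ∈ J by simpa using key 1
  induction hw using Submodule.span_induction with
  | mem g hg =>
    intro r
    rcases hG g hg with h | ⟨N, hN, hgN⟩
    · exact hJ _ (Ideal.mul_mem_right _ _ h) _
    · rw [homogeneousComponent_mul_left hgN, if_neg (by omega)]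
      exact zero_mem _
  | zero => intro r; simp
  | add x y _ _ hx hy => intro r; rw [add_mul, map_add]; exact add_mem (hx r) (hy r)
  | smul c x _ hx => intro r; rw [smul_eq_mul, mul_comm c, mul_assoc]; exact hx _

lemma homogI_sup_span_set {σ : Type*} {J : Ideal (MvPolynomial σ K)} (hJ : HomogI J)
    {G : Set (MvPolynomial σ K)} (hG : ∀ g ∈ G, ∃ N, g.IsHomogeneous N) :
    HomogI (J ⊔ Ideal.span G) := by
  intro u hu t
  obtain ⟨i, hi, w, hw, rfl⟩ := Submodule.mem_sup.1 hu
  rw [map_add]
  refine add_mem (Ideal.mem_sup_left (hJ i hi t)) ?_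
  clear hu hi
  suffices key : ∀ r, homogeneousComponent t (w * r) ∈ J ⊔ Ideal.span G by simpa using key 1
  induction hw using Submodule.span_induction with
  | mem g hg =>
    intro r
    obtain ⟨N, hN⟩ := hG g hg
    rw [homogeneousComponent_mul_left hN]
    split_ifs
    · exact Ideal.mul_mem_right _ _ (Ideal.mem_sup_right (Ideal.subset_span hg))
    · exact zero_mem _
  | zero => intro r; simp
  | add x y _ _ hx hy => intro r; rw [add_mul, map_add]; exact add_mem (hx r) (hy r)
  | smul c x _ hx => intro r; rw [smul_eq_mul, mul_comm c, mul_assoc]; exact hx _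

section Counts

variable {I : Ideal (P3 K)}

/-- Dimension of the multiples of the forms of degree `j - 1` in degree `j`. -/
noncomputable def genDim (I : Ideal (P3 K)) (j : ℕ) : ℕ :=
  finrank K ((cube (shiftPart I j 1)).map kos1)

/-- Dimension of the colon in degree `j - 3`. -/
noncomputable def socDim (I : Ideal (P3 K)) (j : ℕ) : ℕ :=
  if 3 ≤ j then finrank K (colonPart I (j - 3)) else 0

lemma betti_formula (j : ℕ) :
    betti1 I j = finrank K (shiftPart I j 0) - genDim I j ∧
    betti2 I j = (3 * finrank K (shiftPart I j 1) - genDim I j) -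
      (3 * finrank K (shiftPart I j 2) - socDim I j) ∧
    betti3 I j = socDim I j - finrank K (shiftPart I j 3) := by
  have hk : finrank K ↥(cube (shiftPart I j 2) ⊓ LinearMap.ker kos2) = socDim I j := by
    rw [socDim]
    split_ifs with h
    · obtain ⟨d, rfl⟩ : ∃ d, j = d + 3 := ⟨j - 3, by omega⟩
      rw [shiftPart_of_le (by omega), show d + 3 - 2 = d + 1 by omega, cube_inf_ker,
        Nat.add_sub_cancel]
      exact ((Submodule.equivMapOfInjective _ kos3_injective (colonPart I d)).finrank_eq).symm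
    · have : cube (shiftPart I j 2) ⊓ LinearMap.ker kos2 = ⊥ := by
        rcases Nat.lt_or_ge j 2 with h' | h'
        · rw [shiftPart_of_lt h', cube_bot, bot_inf_eq]
        · rw [shiftPart_of_le h', show j - 2 = 0 by omega, cube_inf_ker_zero]
      rw [this, finrank_bot]
  have r1 := finrank_map_add_ker (kos1 (K := K)) (cube (shiftPart I j 1))
  have r2 := finrank_map_add_ker (kos2 (K := K)) (cube (shiftPart I j 2))
  rw [finrank_cube] at r1 r2
  have e3 : finrank K ((shiftPart I j 3).map kos3) = finrank K (shiftPart I j 3) :=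
    ((Submodule.equivMapOfInjective _ kos3_injective _).finrank_eq).symm
  unfold betti1 betti2 betti3 genDim
  rw [e3, hk] at *
  refine ⟨?_, ?_, ?_⟩ <;> omega

lemma shiftPart_congr {I' : Ideal (P3 K)} {j : ℕ} (h : ∀ d ≤ j, degPart d I = degPart d I')
    (p : ℕ) : shiftPart I j p = shiftPart I' j p := by
  rcases le_or_gt p j with hp | hp
  · rw [shiftPart_of_le hp, shiftPart_of_le hp, h _ (by omega)]
  · rw [shiftPart_of_lt hp, shiftPart_of_lt hp]

lemma betti_congr {I' : Ideal (P3 K)} {j : ℕ} (h : ∀ d ≤ j, degPart d I = degPart d I') :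
    betti1 I j = betti1 I' j ∧ betti2 I j = betti2 I' j ∧ betti3 I j = betti3 I' j := by
  unfold betti1 betti2 betti3
  rw [shiftPart_congr h 0, shiftPart_congr h 1, shiftPart_congr h 2, shiftPart_congr h 3]
  exact ⟨rfl, rfl, rfl⟩

lemma betti_extI (j : ℕ) :
    betti1 (extI (L := L) I) j = betti1 I j ∧ betti2 (extI (L := L) I) j = betti2 I j ∧
      betti3 (extI (L := L) I) j = betti3 I j := by
  have hp : ∀ p, finrank L (shiftPart (extI (L := L) I) j p) = finrank K (shiftPart I j p) :=
    fun p => by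
      rcases le_or_gt p j with h | h
      · rw [shiftPart_of_le h, shiftPart_of_le h]; exact finrank_degPart_extI I _
      · rw [shiftPart_of_lt h, shiftPart_of_lt h, finrank_bot, finrank_bot]
  have hg : genDim (extI (L := L) I) j = genDim I j := by
    unfold genDim
    rcases j with _ | d
    · rw [shiftPart_of_lt one_pos, shiftPart_of_lt one_pos, cube_bot, cube_bot,
        Submodule.map_bot, Submodule.map_bot, finrank_bot, finrank_bot]
    · rw [shiftPart_add, shiftPart_add]; exact finrank_kos1_extI I d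
  have hs : socDim (extI (L := L) I) j = socDim I j := by
    unfold socDim
    split_ifs
    · exact finrank_colon_extI I _
    · rfl
  obtain ⟨a1, a2, a3⟩ := betti_formula (I := extI (L := L) I) j
  obtain ⟨b1, b2, b3⟩ := betti_formula (I := I) j
  rw [a1, a2, a3, b1, b2, b3, hp, hp, hp, hp, hg, hs]
  exact ⟨rfl, rfl, rfl⟩

lemma extI_monI (T : ℕ → Finset (Fin 3 →₀ ℕ)) : extI (L := L) (monI K T) = monI L T := by
  rw [extI, monI, monI, Ideal.map_span, Set.image_image]
  simp [map_monomial]

end Counts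

/-- One, two or three forms: the lex-plus-powers ideal exists and has the largest Betti numbers. -/
theorem exists_lpp_betti_few {c : ℕ} (hc : c ≤ 3) {a : Fin c → ℕ} (ha : Monotone a)
    (h2 : ∀ i, 2 ≤ a i) {f : Fin c → P3 K} (hf : ∀ i, (f i).IsHomogeneous (a i))
    (hreg : ∀ i, Nzd (Ideal.span (f '' Set.Iio i)) (f i)) {I : Ideal (P3 K)} (hI : HomogI I)
    (hfI : ∀ i, f i ∈ I) :
    ∃ T : ℕ → Finset (Fin 3 →₀ ℕ), (∀ d, (∀ e ∈ T d, e.degree = d) ∧
        (∀ e : Fin 3 →₀ ℕ, e.degree = d → (∃ i, a i ≤ e (Fin.castLE hc i)) → e ∈ T d) ∧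
        (∀ e ∈ T d, ∀ e' : Fin 3 →₀ ℕ, e'.degree = d →
          (∀ i, e (Fin.castLE hc i) < a i) → (∀ i, e' (Fin.castLE hc i) < a i) →
          toLex e < toLex e' → e' ∈ T d) ∧
        (T d).card = finrank K (degPart d I) ∧
        ∀ e ∈ T d, ∀ v, e + Finsupp.single v 1 ∈ T (d + 1)) ∧
      ∀ j, betti1 I j ≤ betti1 (monI K T) j ∧ betti2 I j ≤ betti2 (monI K T) j ∧
        betti3 I j ≤ betti3 (monI K T) j := by
  classical
  let L := AlgebraicClosure K
  let φ := map (σ := Fin 3) (algebraMap K L)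
  have hpos : ∀ g ∈ List.ofFn fun i => φ (f i), HomogPos g := by
    intro g hg
    obtain ⟨i, rfl⟩ := List.mem_ofFn.1 hg
    exact ⟨a i, by linarith [h2 i], (hf i).map _⟩
  have hregL : RegList ⊥ (List.ofFn fun i => φ (f i)) := by
    refine regList_ofFn _ fun i => ?_
    have := nzd_extI (L := L) (hreg i)
    rwa [extI, Ideal.map_span, ← Set.image_comp] at this
  obtain ⟨ls, hls, hreg3, -⟩ := exists_linear_extension hpos hregL (3 - c)
    (by simp only [List.length_ofFn, Fintype.card_fin]; omega)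
  let g : Fin 3 → P3 L := fun i =>
    if h : (i : ℕ) < c then φ (f ⟨i, h⟩) else ls ⟨i - c, by omega⟩
  let m : Fin 3 → ℕ := fun i => if h : (i : ℕ) < c then a ⟨i, h⟩ else 1
  have hg : ∀ i, (g i).IsHomogeneous (m i) := fun i => by
    simp only [g, m]
    split_ifs with h
    · exact (hf _).map _
    · exact hls _
  have hregg : RegList ⊥ [g 0, g 1, g 2] := by
    have e : [g 0, g 1, g 2] = (List.ofFn fun i => φ (f i)) ++ List.ofFn ls := by
      interval_cases c <;> simp [g, List.ofFn_succ]
    rw [e]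
    exact hreg3
  let M : ℕ := 2 + ∑ i, a i
  have hM : ∀ i, a i ≤ M := fun i => by
    have := Finset.single_le_sum (fun i _ => Nat.zero_le (a i)) (Finset.mem_univ i)
    show a i ≤ 2 + ∑ i, a i
    omega
  let aN : ℕ → Fin 3 → ℕ := fun N i => if h : (i : ℕ) < c then a ⟨i, h⟩ else M + N
  let nN : ℕ → Fin 3 → ℕ := fun N i => if (i : ℕ) < c then 1 else M + N
  let IN : ℕ → Ideal (P3 L) := fun N =>
    extI (L := L) I ⊔ Ideal.span (Set.range fun i => g i ^ nN N i)
  have hgN : ∀ N i, (g i ^ nN N i).IsHomogeneous (aN N i) := fun N i => by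
    have h := (hg i).pow (nN N i)
    have e : m i * nN N i = aN N i := by
      simp only [m, nN, aN]
      split_ifs <;> simp
    rwa [e] at h
  have hdeg : ∀ N, ∀ d < M + N, degPart d (IN N) = degPart d (extI (L := L) I) := fun N d hd => by
    refine degPart_sup_high (homogI_extI hI) ?_
    rintro _ ⟨i, rfl⟩
    by_cases h : (i : ℕ) < c
    · left
      simp only [g, nN, dif_pos h, if_pos h, pow_one]
      exact Ideal.mem_map_of_mem _ (hfI _)
    · right
      refine ⟨aN N i, ?_, hgN N i⟩
      simp only [aN, dif_neg h]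
      exact hd
  have hex : ∀ N, ∃ T, IsLPP (aN N) (IN N) T ∧ ∀ j, betti1 (IN N) j ≤ betti1 (monI L T) j ∧
      betti2 (IN N) j ≤ betti2 (monI L T) j ∧ betti3 (IN N) j ≤ betti3 (monI L T) j := by
    intro N
    have hM2 : 2 ≤ M := Nat.le_add_right _ _
    have hmono : ∀ i j : Fin 3, i ≤ j → aN N i ≤ aN N j := fun i j hij => by
      simp only [aN]
      have hij' : (i : ℕ) ≤ (j : ℕ) := hij
      split_ifs with h h'
      · exact ha hij'
      · exact (hM _).trans (Nat.le_add_right _ _)
      · omega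
      · rfl
    have h2N : ∀ i, 2 ≤ aN N i := fun i => by
      simp only [aN]
      split_ifs
      · exact h2 _
      · omega
    refine exists_lpp_betti h2N (hmono 0 1 (by decide)) (hmono 1 2 (by decide)) (hgN N) ?_
      (homogI_sup_span_set (homogI_extI hI) fun x ⟨i, hi⟩ => ⟨aN N i, hi ▸ hgN N i⟩)
      fun i => Ideal.mem_sup_right (Ideal.subset_span ⟨i, rfl⟩)
    refine regList_pow (nN N) m hg (fun i => ?_) (fun i => ?_) hregg
    · simp only [m]
      split_ifs with h
      · exact lt_of_lt_of_le two_pos (h2 _)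
      · exact one_pos
    · simp only [nN]
      split_ifs <;> omega
  choose TN hTN hBN using hex
  let T : ℕ → Finset (Fin 3 →₀ ℕ) := fun d => TN (d + 1) d
  have hbox : ∀ N, ∀ d < M + N, ∀ e : Fin 3 →₀ ℕ, e.degree = d →
      ((∀ i, e i < aN N i) ↔ ∀ i : Fin c, e (Fin.castLE hc i) < a i) := by
    intro N d hd e he
    constructor
    · intro h i
      have := h (Fin.castLE hc i)
      simp only [aN, Fin.val_castLE, i.2, dif_pos] at this
      exact this
    · intro h i
      simp only [aN]
      split_ifs with hi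
      · exact h ⟨i, hi⟩
      · have := Finsupp.le_degree i e
        omega
  have hsame : ∀ N, ∀ d < M + N, TN N d = T d := by
    intro N d hd
    refine IsSeg.eq_of_card (a := aN N) (hTN N d).1
      ((hTN (d + 1) d).1.congr_bound fun i n hn => ?_) ?_
    · simp only [aN]
      split_ifs
      · exact Iff.rfl
      · omega
    · rw [(hTN N d).2.1, (hTN (d + 1) d).2.1, hdeg N d hd, hdeg (d + 1) d (by omega)]
  refine ⟨T, fun d => ?_, fun j => ?_⟩
  · obtain ⟨⟨s1, s2, s3⟩, s4, -⟩ := hTN (d + 1) d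
    refine ⟨s1, fun e he ⟨i, hi⟩ => s2 e he ?_, fun e he e' hd' hb hb' hlt =>
      s3 e he e' hd' ((hbox _ d (by omega) e (s1 e he)).2 hb)
        ((hbox _ d (by omega) e' hd').2 hb') hlt, ?_, fun e he v => ?_⟩
    · refine ⟨Fin.castLE hc i, ?_⟩
      simp only [aN, Fin.val_castLE, i.2, dif_pos]
      exact hi
    · rw [s4, hdeg _ d (by omega), finrank_degPart_extI]
    · have := (hTN (d + 2) d).2.2 e (by rw [hsame _ d (by omega)]; exact he) v
      rwa [hsame _ (d + 1) (by omega)] at this
  · have hdegT : ∀ d, ∀ e ∈ T d, e.degree = d := fun d => (hTN (d + 1) d).1.1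
    have hsucT : ∀ d, ∀ e ∈ T d, ∀ v, e + Finsupp.single v 1 ∈ T (d + 1) := fun d e he v => by
      have := (hTN (d + 2) d).2.2 e (by rw [hsame _ d (by omega)]; exact he) v
      rwa [hsame _ (d + 1) (by omega)] at this
    have hmon : ∀ d ≤ j, degPart d (monI L (TN (j + 1))) = degPart d (monI L T) := fun d hd => by
      rw [degPart_monI (fun t => (hTN (j + 1) t).1.1) (fun t => (hTN (j + 1) t).2.2),
        degPart_monI hdegT hsucT, hsame _ d (by omega)]
    obtain ⟨c1, c2, c3⟩ := betti_congr (I := IN (j + 1)) (I' := extI (L := L) I) (j := j)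
      fun d hd => hdeg _ d (by omega)
    obtain ⟨d1, d2, d3⟩ := betti_congr (j := j) hmon
    obtain ⟨k1, k2, k3⟩ := betti_extI (L := L) (I := monI K T) j
    obtain ⟨l1, l2, l3⟩ := betti_extI (L := L) (I := I) j
    rw [extI_monI] at k1 k2 k3
    obtain ⟨b1, b2, b3⟩ := hBN (j + 1) j
    rw [c1, d1, k1, l1] at b1
    rw [c2, d2, k2, l2] at b2
    rw [c3, d3, k3, l3] at b3
    exact ⟨b1, b2, b3⟩

end Vale.Agent.P200.LPP3
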