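import Vale.Agent.P200.LPP3.Final

/-!
Field extension for the two dimension counts, and powers in regular sequences.
-/

namespace Vale.Agent.P200.LPP3

open MvPolynomial Module

variable {K L : Type*} [Field K] [Field L] [Algebra K L]

lemma finrank_ext {σ : Type*} {V : Submodule K (MvPolynomial σ K)} [FiniteDimensional K V]
    {W : Submodule L (MvPolynomial σ L)}
    (h1 : ∀ u ∈ W, ∀ φ : L →ₗ[K] K, coeffwise φ u ∈ V)
    (h2 : ∀ v ∈ V, map (algebraMap K L) v ∈ W) : finrank L W = finrank K V := by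
  let b := Module.finBasis K V
  let v : Fin (finrank K V) → MvPolynomial σ L :=
    fun i => map (algebraMap K L) (b i : MvPolynomial σ K)
  have hli : LinearIndependent L v := by
    rw [Fintype.linearIndependent_iff]
    intro c hc i
    by_contra hne
    obtain ⟨φ, hφ⟩ : ∃ φ : L →ₗ[K] K, φ (c i) ≠ 0 := by
      by_contra hcon
      push Not at hcon
      let B := Basis.ofVectorSpace K L
      exact hne (B.repr.map_eq_zero_iff.1 (Finsupp.ext fun k => hcon (B.coord k)))
    have h0 : ∑ k, φ (c k) • (b k : MvPolynomial σ K) = 0 := by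
      have := congrArg (coeffwise φ) hc
      rw [map_sum, map_zero] at this
      rw [← this]
      refine Finset.sum_congr rfl fun k _ => ?_
      ext e
      simp only [v, coeff_coeffwise, coeff_smul, coeff_map, smul_eq_mul]
      rw [mul_comm (c k), ← Algebra.smul_def, map_smul, smul_eq_mul, mul_comm]
    exact hφ (Fintype.linearIndependent_iff.1 b.linearIndependent (fun k => φ (c k))
      (Subtype.ext (by simpa using h0)) i)
  have hspan : W = Submodule.span L (Set.range v) := by
    refine le_antisymm (fun u hu => ?_) (Submodule.span_le.2 ?_)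
    · refine mem_of_coeffwise (K := K) fun φ => ?_
      have := congrArg Subtype.val (b.sum_repr ⟨_, h1 u hu φ⟩)
      simp only [Submodule.coe_sum, Submodule.coe_smul] at this
      rw [← this, map_sum]
      refine sum_mem fun k _ => ?_
      rw [smul_eq_C_mul, map_mul, map_C, ← smul_eq_C_mul]
      exact Submodule.smul_mem _ _ (Submodule.subset_span ⟨k, rfl⟩)
    · rintro _ ⟨i, rfl⟩
      exact h2 _ (b i).2
  rw [hspan, finrank_span_eq_card hli, Fintype.card_fin]

lemma coeffwise_isHomogeneous {σ : Type*} {u : MvPolynomial σ L} {t : ℕ}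
    (hu : u.IsHomogeneous t) (φ : L →ₗ[K] K) : (coeffwise φ u).IsHomogeneous t := fun e he => hu (by
  intro h0
  rw [coeff_coeffwise, h0, map_zero] at he
  exact he rfl)

lemma coeffwise_X_mul {σ : Type*} (φ : L →ₗ[K] K) (v : σ) (u : MvPolynomial σ L) :
    coeffwise φ (X v * u) = X v * coeffwise φ u := by
  rw [show (X v : MvPolynomial σ L) = map (algebraMap K L) (X v) from (map_X _ v).symm,
    coeffwise_map_mul]

variable (I : Ideal (P3 K))

lemma finrank_kos1_extI (d : ℕ) :
    finrank L ((cube (degPart d (extI (L := L) I))).map kos1) =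
      finrank K ((cube (degPart d I)).map kos1) := by
  refine finrank_ext (fun u hu φ => ?_) fun v hv => ?_
  · obtain ⟨w, hw, rfl⟩ := hu
    rw [kos1_eq_sum, map_sum]
    refine sum_mem fun i _ => ?_
    rw [coeffwise_X_mul]
    obtain ⟨h1, h2⟩ := mem_degPart.1 (hw i (Set.mem_univ i))
    exact mem_map_kos1 i (mem_degPart.2 ⟨coeffwise_isHomogeneous h1 φ, coeffwise_mem h2 φ⟩)
  · obtain ⟨w, hw, rfl⟩ := hv
    rw [kos1_eq_sum, map_sum]
    refine sum_mem fun i _ => ?_
    rw [map_mul, map_X]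
    obtain ⟨h1, h2⟩ := mem_degPart.1 (hw i (Set.mem_univ i))
    exact mem_map_kos1 i (mem_degPart.2 ⟨h1.map _, Ideal.mem_map_of_mem _ h2⟩)

lemma finrank_colon_extI (d : ℕ) :
    finrank L (colonPart (extI (L := L) I) d) = finrank K (colonPart I d) := by
  refine finrank_ext (fun u hu φ => ?_) fun v hv => ?_
  · obtain ⟨h1, h2⟩ := mem_colonPart.1 hu
    refine mem_colonPart.2 ⟨coeffwise_isHomogeneous h1 φ, fun i => ?_⟩
    rw [← coeffwise_X_mul]
    exact coeffwise_mem (h2 i) φ
  · obtain ⟨h1, h2⟩ := mem_colonPart.1 hv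
    refine mem_colonPart.2 ⟨h1.map _, fun i => ?_⟩
    have := Ideal.mem_map_of_mem (MvPolynomial.map (algebraMap K L)) (h2 i)
    rwa [map_mul, map_X] at this

lemma nzd_pow {σ : Type*} {J : Ideal (MvPolynomial σ K)} {g : MvPolynomial σ K} (h : Nzd J g) :
    ∀ n, Nzd J (g ^ n)
  | 0 => fun u hu => by simpa using hu
  | n + 1 => fun u hu => by
    rw [pow_succ, mul_assoc] at hu
    exact h u (nzd_pow h n _ hu)

lemma regList_step_pow {x y g : P3 K} (n : ℕ) (hx : HomogPos x) (hy : HomogPos y)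
    (hg' : HomogPos (g ^ n)) (h : RegList ⊥ [x, y, g]) : RegList ⊥ [g ^ n, x, y] := by
  obtain ⟨h1, h2, h3, -⟩ := h
  refine regList_perm ?_ (by simp [hx, hy, hg']) homogI_bot
    (show RegList ⊥ [x, y, g ^ n] from ⟨h1, h2, nzd_pow h3 n, trivial⟩)
  exact (List.perm_append_comm : List.Perm ([x, y] ++ [g ^ n]) ([g ^ n] ++ [x, y]))

lemma regList_pow {g : Fin 3 → P3 K} (n m : Fin 3 → ℕ) (hg : ∀ i, (g i).IsHomogeneous (m i))
    (hm : ∀ i, 0 < m i) (hn : ∀ i, 0 < n i) (h : RegList ⊥ [g 0, g 1, g 2]) :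
    RegList ⊥ [g 0 ^ n 0, g 1 ^ n 1, g 2 ^ n 2] := by
  have hp : ∀ i, HomogPos (g i ^ n i) := fun i =>
    ⟨m i * n i, Nat.mul_pos (hm i) (hn i), (hg i).pow _⟩
  have hq : ∀ i, HomogPos (g i) := fun i => ⟨m i, hm i, hg i⟩
  exact regList_step_pow _ (hp 1) (hp 2) (hp 0)
    (regList_step_pow _ (hp 2) (hq 0) (hp 1) (regList_step_pow _ (hq 0) (hq 1) (hp 2) h))

end Vale.Agent.P200.LPP3
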