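import Vale.Agent.P200.LPP3.Segment

/-!
Generators and socle against the lex-plus-powers sets.
-/

namespace Vale.Agent.P200.LPP3

open MvPolynomial Module

variable {K : Type*} [Field K]

lemma regList_step {x y g g' : P3 K} (hx : HomogPos x) (hy : HomogPos y) (hg' : HomogPos g')
    (hor : g' = g ∨ g' = g ^ 2) (h : RegList ⊥ [x, y, g]) : RegList ⊥ [g', x, y] := by
  have h' : RegList ⊥ [x, y, g'] := by
    obtain ⟨h1, h2, h3, -⟩ := h
    refine ⟨h1, h2, ?_, trivial⟩
    rcases hor with rfl | rfl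
    · exact h3
    · intro u hu
      rw [sq, mul_assoc] at hu
      exact h3 u (h3 _ hu)
  refine regList_perm ?_ (by simp [hx, hy, hg']) homogI_bot h'
  exact (List.perm_append_comm : List.Perm ([x, y] ++ [g']) ([g'] ++ [x, y]))

lemma regList_squares {f f' : Fin 3 → P3 K} (hf : ∀ i, HomogPos (f i)) (hf' : ∀ i, HomogPos (f' i))
    (hor : ∀ i, f' i = f i ∨ f' i = f i ^ 2) (h : RegList ⊥ [f 0, f 1, f 2]) :
    RegList ⊥ [f' 0, f' 1, f' 2] := by
  have h1 := regList_step (hf 0) (hf 1) (hf' 2) (hor 2) h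
  have h2 := regList_step (hf' 2) (hf 0) (hf' 1) (hor 1) h1
  exact regList_step (hf' 1) (hf' 2) (hf' 0) (hor 0) h2

variable {a : Fin 3 → ℕ} {f : Fin 3 → P3 K} {I : Ideal (P3 K)} {T : ℕ → Finset (Fin 3 →₀ ℕ)}

lemma mem_map_kos1 {M : Submodule K (P3 K)} (v : Fin 3) {p : P3 K} (hp : p ∈ M) :
    X v * p ∈ (cube M).map kos1 := by
  refine ⟨Pi.single v p, fun i _ => ?_, kos1_single v p⟩
  simp only [SetLike.mem_coe]
  rcases eq_or_ne i v with rfl | hne
  · rwa [Pi.single_eq_same]
  · rw [Pi.single_eq_of_ne hne]; exact zero_mem _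

lemma kos1_mem {d : ℕ} {u : Fin 3 → P3 K} (hu : u ∈ cube (degPart d I)) :
    kos1 u ∈ degPart (d + 1) I := by
  rw [kos1_eq_sum]
  refine sum_mem fun v _ => ?_
  obtain ⟨h1, h2⟩ := mem_degPart.1 (hu v (Set.mem_univ v))
  exact mem_degPart.2 ⟨by rw [add_comm]; exact (isHomogeneous_X K v).mul h1,
    Ideal.mul_mem_left _ _ h2⟩

lemma homog_mul_mem_map {d e : ℕ} (g : P3 K) (hg : g.IsHomogeneous e) (hge : g ∈ I)
    (hed : e ≤ d) (r : P3 K) :
    homogeneousComponent (d + 1) (g * r) ∈ (cube (degPart d I)).map kos1 := by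
  rw [homogeneousComponent_mul_left hg, if_pos (by omega),
    show d + 1 - e = (d - e) + 1 by omega]
  have hr := homogeneousComponent_isHomogeneous (d - e + 1) r
  have hspan := mem_span_X_of_isHomogeneous (by omega) hr
  obtain ⟨c, hc⟩ := (Submodule.mem_span_range_iff_exists_fun (P3 K)).1 hspan
  have hkey : homogeneousComponent (d - e + 1) r =
      ∑ v, X v * homogeneousComponent (d - e) (c v) := by
    have := congrArg (homogeneousComponent (d - e + 1)) hc
    rw [map_sum, homogeneousComponent_eq_self hr] at this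
    rw [← this]
    refine Finset.sum_congr rfl fun v _ => ?_
    rw [smul_eq_mul, mul_comm, homogeneousComponent_mul_left (isHomogeneous_X K v),
      if_pos (by omega), Nat.add_sub_cancel]
  rw [hkey, Finset.mul_sum]
  refine sum_mem fun v _ => ?_
  rw [mul_left_comm]
  refine mem_map_kos1 v (mem_degPart.2 ⟨?_, Ideal.mul_mem_right _ _ hge⟩)
  rw [show d = e + (d - e) by omega, Nat.add_sub_cancel_left]
  exact hg.mul (homogeneousComponent_isHomogeneous _ _)

/-- The multiples in degree `d + 1` are at least as many as those of the segment. -/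
lemma shadow_le (h2 : ∀ i, 2 ≤ a i) (h01 : a 0 ≤ a 1) (h12 : a 1 ≤ a 2)
    (hf : ∀ i, (f i).IsHomogeneous (a i)) (hreg : RegList ⊥ [f 0, f 1, f 2])
    (hfI : ∀ i, f i ∈ I) (hT : IsLPP a I T) (d : ℕ) :
    (shadow (T d)).card ≤ finrank K ((cube (degPart d I)).map kos1) := by
  classical
  let a' : Fin 3 → ℕ := fun i => if a i ≤ d then a i else a i + a i
  let f' : Fin 3 → P3 K := fun i => if a i ≤ d then f i else f i ^ 2
  have hf' : ∀ i, (f' i).IsHomogeneous (a' i) := fun i => by
    simp only [a', f']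
    split_ifs
    · exact hf i
    · rw [sq]; exact (hf i).mul (hf i)
  have h2' : ∀ i, 2 ≤ a' i := fun i => by
    have := h2 i
    simp only [a']; split_ifs <;> omega
  have hmono : ∀ i j, a i ≤ a j → a' i ≤ a' j := fun i j hij => by
    simp only [a']; split_ifs <;> omega
  have hreg' : RegList ⊥ [f' 0, f' 1, f' 2] := by
    refine regList_squares (fun i => ⟨a i, by linarith [h2 i], hf i⟩)
      (fun i => ⟨a' i, by linarith [h2' i], hf' i⟩) (fun i => ?_) hreg
    simp only [f']
    split_ifs <;> simp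
  let G : Set (P3 K) := (degPart d I : Set (P3 K)) ∪ Set.range f'
  let I'' : Ideal (P3 K) := Ideal.span G
  obtain ⟨T', hT'⟩ := exists_lpp3 h2' (hmono 0 1 h01) (hmono 1 2 h12) hf' hreg' (I := I'')
    fun i => Ideal.subset_span (Or.inr ⟨i, rfl⟩)
  have hsub : I'' ≤ I := by
    refine Ideal.span_le.2 ?_
    rintro g (hg | ⟨i, rfl⟩)
    · exact (mem_degPart.1 hg).2
    · simp only [f']
      split_ifs
      · exact hfI i
      · exact Ideal.pow_mem_of_mem I (hfI i) 2 (by omega)
  have hd : degPart d I'' = degPart d I := le_antisymm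
    (fun u hu => mem_degPart.2 ⟨(mem_degPart.1 hu).1, hsub (mem_degPart.1 hu).2⟩)
    fun u hu => mem_degPart.2 ⟨(mem_degPart.1 hu).1, Ideal.subset_span (Or.inl hu)⟩
  have hd1 : degPart (d + 1) I'' ≤ (cube (degPart d I)).map kos1 := by
    intro u hu
    obtain ⟨hu1, hu2⟩ := mem_degPart.1 hu
    rw [← homogeneousComponent_eq_self hu1]
    suffices key : ∀ w ∈ I'', ∀ r, homogeneousComponent (d + 1) (w * r) ∈
        (cube (degPart d I)).map kos1 by simpa using key u hu2 1
    intro w hw
    induction hw using Submodule.span_induction with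
    | mem g hg =>
      intro r
      rcases hg with hg | ⟨i, rfl⟩
      · exact homog_mul_mem_map g (mem_degPart.1 hg).1 (mem_degPart.1 hg).2 le_rfl r
      · by_cases h : a i ≤ d
        · simp only [f', h, if_true]
          exact homog_mul_mem_map (f i) (hf i) (hfI i) h r
        · rw [homogeneousComponent_mul_left (hf' i), if_neg]
          · exact zero_mem _
          · simp only [a', h, if_false]; omega
    | zero => intro r; simp
    | add x y _ _ hx hy => intro r; rw [add_mul, map_add]; exact add_mem (hx r) (hy r)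
    | smul c x _ hx => intro r; rw [smul_eq_mul, mul_comm c, mul_assoc]; exact hx _
  obtain ⟨hT'1, hT'2, hT'3, hT'4, hT'5⟩ := hT' d
  have hseg : IsSeg a' d (T' d) := ⟨hT'1, hT'2, hT'3⟩
  have heq : T' d = T d := by
    refine hseg.eq_of_card ((hT d).1.congr_bound fun i n hn => ?_) ?_
    · simp only [a']; split_ifs <;> omega
    · rw [hT'4, (hT d).2.1, hd]
  have hsh : shadow (T d) ⊆ T' (d + 1) := by
    intro e he
    obtain ⟨e0, he0, hv⟩ := Finset.mem_biUnion.1 he
    obtain ⟨v, -, rfl⟩ := Finset.mem_image.1 hv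
    exact hT'5 e0 (heq ▸ he0) v
  have hfin : FiniteDimensional K ((cube (degPart d I)).map kos1) := by
    refine Submodule.finiteDimensional_of_le (S₂ := degPart (d + 1) I) ?_
    rintro _ ⟨u, hu, rfl⟩
    exact kos1_mem hu
  refine (Finset.card_le_card hsh).trans ?_
  rw [(hT' (d + 1)).2.2.2.1]
  exact Submodule.finrank_mono hd1

/-- The forms of degree `d` all of whose multiples lie in `I`. -/
noncomputable def colonPart (I : Ideal (P3 K)) (d : ℕ) : Submodule K (P3 K) :=
  homogeneousSubmodule (Fin 3) K d ⊓ (I.restrictScalars K).comap (LinearMap.mulLeft K (X 0)) ⊓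
    (I.restrictScalars K).comap (LinearMap.mulLeft K (X 1)) ⊓
    (I.restrictScalars K).comap (LinearMap.mulLeft K (X 2))

lemma mem_colonPart {d : ℕ} {s : P3 K} :
    s ∈ colonPart I d ↔ s.IsHomogeneous d ∧ ∀ v, X v * s ∈ I := by
  simp [colonPart, Fin.forall_fin_succ, and_assoc]

instance finite_colonPart (I : Ideal (P3 K)) (d : ℕ) : Module.Finite K (colonPart I d) :=
  Submodule.finiteDimensional_of_le (S₂ := homogeneousSubmodule (Fin 3) K d)
    fun _ hs => (mem_colonPart.1 hs).1

/-- The exponents all of whose successors are chosen. -/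
noncomputable def colonSet (T : ℕ → Finset (Fin 3 →₀ ℕ)) (d : ℕ) : Finset (Fin 3 →₀ ℕ) :=
  (exps3 d).filter fun e => ∀ v, e + Finsupp.single v 1 ∈ T (d + 1)

/-- The colon in degree `d` is at most that of the segment. -/
lemma colon_le (h2 : ∀ i, 2 ≤ a i) (h01 : a 0 ≤ a 1) (h12 : a 1 ≤ a 2)
    (hf : ∀ i, (f i).IsHomogeneous (a i)) (hreg : RegList ⊥ [f 0, f 1, f 2])
    (hI : HomogI I) (hfI : ∀ i, f i ∈ I) (hT : IsLPP a I T) (d : ℕ) :
    finrank K (colonPart I d) ≤ (colonSet T d).card := by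
  let I' : Ideal (P3 K) := I ⊔ Ideal.span (colonPart I d : Set (P3 K))
  obtain ⟨T', hT'⟩ := exists_lpp3 h2 h01 h12 hf hreg (I := I')
    fun i => Ideal.mem_sup_left (hfI i)
  have hd1 : degPart (d + 1) I' = degPart (d + 1) I := by
    refine le_antisymm (fun u hu => ?_) fun u hu =>
      mem_degPart.2 ⟨(mem_degPart.1 hu).1, Ideal.mem_sup_left (mem_degPart.1 hu).2⟩
    obtain ⟨hu1, hu2⟩ := mem_degPart.1 hu
    refine mem_degPart.2 ⟨hu1, ?_⟩
    obtain ⟨i, hi, w, hw, rfl⟩ := Submodule.mem_sup.1 hu2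
    rw [← homogeneousComponent_eq_self hu1, map_add]
    refine add_mem (hI i hi _) ?_
    clear hu hu1 hu2 hi
    suffices key : ∀ r, homogeneousComponent (d + 1) (w * r) ∈ I by simpa using key 1
    induction hw using Submodule.span_induction with
    | mem s hs =>
      intro r
      obtain ⟨hs1, hs2⟩ := mem_colonPart.1 hs
      rw [homogeneousComponent_mul_left hs1, if_pos (by omega), Nat.add_sub_cancel_left]
      have hr := mem_span_X_of_isHomogeneous one_pos (homogeneousComponent_isHomogeneous 1 r)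
      revert hr
      generalize homogeneousComponent 1 r = p
      intro hr
      induction hr using Submodule.span_induction with
      | mem x hx => obtain ⟨v, rfl⟩ := hx; rw [mul_comm]; exact hs2 v
      | zero => simp
      | add x y _ _ hx hy => rw [mul_add]; exact add_mem hx hy
      | smul c x _ hx => rw [smul_eq_mul, mul_left_comm]; exact Ideal.mul_mem_left _ _ hx
    | zero => intro r; simp
    | add x y _ _ hx hy => intro r; rw [add_mul, map_add]; exact add_mem (hx r) (hy r)
    | smul c x _ hx => intro r; rw [smul_eq_mul, mul_comm c, mul_assoc]; exact hx _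
  obtain ⟨hT'1, hT'2, hT'3, hT'4, hT'5⟩ := hT' d
  have heq : T' (d + 1) = T (d + 1) := by
    obtain ⟨g1, g2, g3, g4, -⟩ := hT' (d + 1)
    refine IsSeg.eq_of_card ⟨g1, g2, g3⟩ (hT (d + 1)).1 ?_
    rw [g4, (hT (d + 1)).2.1, hd1]
  have hle : colonPart I d ≤ degPart d I' := fun s hs =>
    mem_degPart.2 ⟨(mem_colonPart.1 hs).1, Ideal.mem_sup_right (Ideal.subset_span hs)⟩
  refine (Submodule.finrank_mono hle).trans ?_
  rw [← hT'4]
  refine Finset.card_le_card fun e he => Finset.mem_filter.2 ⟨mem_exps3.2 ?_, fun v => ?_⟩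
  · rw [← hT'1 e he, Finsupp.degree_eq_sum, Fin.sum_univ_three]
  · exact heq ▸ hT'5 e he v

lemma eq_smul_of_cross {v : Fin 3 → P3 K} (h : kos2 v = 0) : ∃ s, ∀ i, v i = X i * s := by
  have e2 := congrFun h 2
  have e1 := congrFun h 1
  have e0 := congrFun h 0
  simp [kos2, sub_eq_zero] at e0 e1 e2
  obtain ⟨s, hs⟩ : (X 0 : P3 K) ∣ v 0 := by
    have hd : (X 0 : P3 K) ∣ X 1 * v 0 := ⟨v 1, e2.symm⟩
    refine (X_dvd_mul_iff.1 hd).resolve_left fun h => ?_
    have := (X_dvd_X (R := K)).1 h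
    exact absurd this (by decide)
  refine ⟨s, fun i => ?_⟩
  fin_cases i
  · exact hs
  · refine mul_left_cancel₀ (X_ne_zero (0 : Fin 3)) ?_
    simp only [Fin.mk_one]
    rw [e2, hs]; ring
  · refine mul_left_cancel₀ (X_ne_zero (0 : Fin 3)) ?_
    show (X 0 : P3 K) * v 2 = X 0 * (X 2 * s)
    rw [← e1, hs]; ring

lemma kos2_kos3 (s : P3 K) : kos2 (kos3 s) = 0 := by
  funext i
  fin_cases i <;> simp [kos2, kos3] <;> ring

lemma cube_inf_ker (d : ℕ) :
    cube (degPart (d + 1) I) ⊓ LinearMap.ker kos2 = (colonPart I d).map kos3 := by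
  refine le_antisymm ?_ ?_
  · rintro v ⟨hv, hker⟩
    obtain ⟨s, hs⟩ := eq_smul_of_cross (LinearMap.mem_ker.1 hker)
    have h0 := (mem_degPart.1 (hv 0 (Set.mem_univ 0))).1
    have hsd : homogeneousComponent d s = s := by
      refine mul_left_cancel₀ (X_ne_zero (0 : Fin 3)) ?_
      have := homogeneousComponent_mul_left (isHomogeneous_X K (0 : Fin 3)) s (d + 1)
      rw [if_pos (by omega), Nat.add_sub_cancel, ← hs 0, homogeneousComponent_eq_self h0] at this
      rw [← this, hs 0]
    refine ⟨s, mem_colonPart.2 ⟨hsd ▸ homogeneousComponent_isHomogeneous d s, fun i => ?_⟩,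
      funext fun i => (hs i).symm⟩
    rw [← hs i]
    exact (mem_degPart.1 (hv i (Set.mem_univ i))).2
  · rintro _ ⟨s, hs, rfl⟩
    obtain ⟨h1, h2⟩ := mem_colonPart.1 hs
    exact ⟨fun i _ => mem_degPart.2 ⟨by rw [add_comm]; exact (isHomogeneous_X K i).mul h1, h2 i⟩,
      LinearMap.mem_ker.2 (kos2_kos3 s)⟩

lemma cube_inf_ker_zero : cube (degPart 0 I) ⊓ LinearMap.ker kos2 = ⊥ := by
  rw [eq_bot_iff]
  rintro v ⟨hv, hker⟩
  obtain ⟨s, hs⟩ := eq_smul_of_cross (LinearMap.mem_ker.1 hker)
  refine (Submodule.mem_bot K).2 (funext fun i => ?_)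
  have h0 := homogeneousComponent_eq_self (mem_degPart.1 (hv i (Set.mem_univ i))).1
  rw [hs i, homogeneousComponent_mul_left (isHomogeneous_X K i), if_neg (by omega)] at h0
  rw [hs i, ← h0]
  rfl

lemma kos3_injective : Function.Injective (kos3 : P3 K →ₗ[K] _) := fun _ _ h =>
  mul_left_cancel₀ (X_ne_zero (0 : Fin 3)) (congrFun h 0)

lemma colonPart_monI (hdeg : ∀ d, ∀ e ∈ T d, e.degree = d)
    (hsucc : ∀ d, ∀ e ∈ T d, ∀ v, e + Finsupp.single v 1 ∈ T (d + 1)) (d : ℕ) :
    colonPart (monI K T) d = restrictSupport K (↑(colonSet T d) : Set (Fin 3 →₀ ℕ)) := by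
  classical
  have key : ∀ s : P3 K, s.IsHomogeneous d → ∀ v,
      X v * s ∈ monI K T ↔ ∀ e ∈ s.support, Finsupp.single v 1 + e ∈ T (d + 1) := by
    intro s hs v
    have hh : (X v * s).IsHomogeneous (d + 1) := by
      rw [add_comm]; exact (isHomogeneous_X K v).mul hs
    have : X v * s ∈ monI K T ↔ X v * s ∈ degPart (d + 1) (monI K T) :=
      ⟨fun h => mem_degPart.2 ⟨hh, h⟩, fun h => (mem_degPart.1 h).2⟩
    rw [this, degPart_monI hdeg hsucc, mem_restrictSupport_iff, support_X_mul]
    simp [Set.subset_def, addLeftEmbedding]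
  ext s
  rw [mem_colonPart, mem_restrictSupport_iff]
  constructor
  · rintro ⟨hs, hv⟩ e he
    have hd : e.degree = d := by
      by_contra hne
      exact (MvPolynomial.mem_support_iff.1 he) (hs.coeff_eq_zero hne)
    refine Finset.mem_filter.2 ⟨mem_exps3.2 ?_, fun v => ?_⟩
    · rw [← hd, Finsupp.degree_eq_sum, Fin.sum_univ_three]
    · rw [add_comm e]; exact (key s hs v).1 (hv v) e he
  · intro h
    have hs : s.IsHomogeneous d := fun e he => by
      have := mem_exps3.1 (Finset.mem_filter.1 (h (MvPolynomial.mem_support_iff.2 he))).1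
      rw [show Finsupp.weight (1 : Fin 3 → ℕ) e = e.degree by
        rw [Finsupp.degree_eq_weight_one]; rfl, Finsupp.degree_eq_sum, Fin.sum_univ_three]
      exact this
    refine ⟨hs, fun v => (key s hs v).2 fun e he => ?_⟩
    rw [add_comm _ e]
    exact (Finset.mem_filter.1 (h he)).2 v

end Vale.Agent.P200.LPP3
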