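import Mathlib

/-!
Koszul complex on the three variables with coefficients in a homogeneous ideal.
-/

namespace Vale.Agent.P200.LPP3

open MvPolynomial Module

/-- Polynomials in three variables. -/
abbrev P3 (K : Type*) [Field K] : Type _ := MvPolynomial (Fin 3) K

variable {K : Type*} [Field K]

/-- The forms of degree `j - p` in `I`; zero if `j < p`. -/
noncomputable def shiftPart (I : Ideal (P3 K)) (j p : ℕ) : Submodule K (P3 K) :=
  if p ≤ j then homogeneousSubmodule (Fin 3) K (j - p) ⊓ I.restrictScalars K else ⊥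

/-- Triples with all entries in `M`. -/
noncomputable def cube (M : Submodule K (P3 K)) : Submodule K (Fin 3 → P3 K) :=
  Submodule.pi Set.univ fun _ => M

/-- `u ↦ x₀ u₀ + x₁ u₁ + x₂ u₂`. -/
noncomputable def kos1 : (Fin 3 → P3 K) →ₗ[K] P3 K where
  toFun u := X 0 * u 0 + X 1 * u 1 + X 2 * u 2
  map_add' u v := by simp only [Pi.add_apply]; ring
  map_smul' r u := by simp only [Pi.smul_apply, RingHom.id_apply, smul_eq_C_mul]; ring

/-- `v ↦ x × v`. -/
noncomputable def kos2 : (Fin 3 → P3 K) →ₗ[K] (Fin 3 → P3 K) where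
  toFun v := ![X 1 * v 2 - X 2 * v 1, X 2 * v 0 - X 0 * v 2, X 0 * v 1 - X 1 * v 0]
  map_add' u v := by
    funext i
    fin_cases i <;> simp <;> ring
  map_smul' r u := by
    funext i
    fin_cases i <;> simp [smul_eq_C_mul] <;> ring

/-- `s ↦ (x₀ s, x₁ s, x₂ s)`. -/
noncomputable def kos3 : P3 K →ₗ[K] (Fin 3 → P3 K) where
  toFun s := fun i => X i * s
  map_add' u v := by funext i; simp only [Pi.add_apply]; ring
  map_smul' r u := by funext i; simp only [Pi.smul_apply, RingHom.id_apply, smul_eq_C_mul]; ring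

/-- `dim Tor₀(I, K)` in degree `j`, that is, the first graded Betti number of `S/I`. -/
noncomputable def betti1 (I : Ideal (P3 K)) (j : ℕ) : ℕ :=
  finrank K (shiftPart I j 0) - finrank K ((cube (shiftPart I j 1)).map kos1)

/-- `dim Tor₁(I, K)` in degree `j`, that is, the second graded Betti number of `S/I`. -/
noncomputable def betti2 (I : Ideal (P3 K)) (j : ℕ) : ℕ :=
  finrank K ↥(cube (shiftPart I j 1) ⊓ LinearMap.ker kos1) -
    finrank K ((cube (shiftPart I j 2)).map kos2)

/-- `dim Tor₂(I, K)` in degree `j`, that is, the third graded Betti number of `S/I`. -/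
noncomputable def betti3 (I : Ideal (P3 K)) (j : ℕ) : ℕ :=
  finrank K ↥(cube (shiftPart I j 2) ⊓ LinearMap.ker kos2) -
    finrank K ((shiftPart I j 3).map kos3)

end Vale.Agent.P200.LPP3
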