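import Vale.Agent.P200.LPP3.Bounds

/-!
Graded Betti numbers against the lex-plus-powers ideal in three variables.
-/

namespace Vale.Agent.P200.LPP3

open MvPolynomial Module

variable {K : Type*} [Field K] {I : Ideal (P3 K)}

lemma shiftPart_of_le {j p : ℕ} (h : p ≤ j) : shiftPart I j p = degPart (j - p) I := by
  rw [shiftPart, if_pos h]
  rfl

lemma shiftPart_add (d p : ℕ) : shiftPart I (d + p) p = degPart d I := by
  rw [shiftPart_of_le (by omega), Nat.add_sub_cancel]

lemma shiftPart_of_lt {j p : ℕ} (h : j < p) : shiftPart I j p = ⊥ := by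
  rw [shiftPart, if_neg (by omega)]

lemma cube_bot : cube (⊥ : Submodule K (P3 K)) = ⊥ := Submodule.pi_univ_bot

/-- Triples of members of a subspace. -/
noncomputable def cubeEquiv (M : Submodule K (P3 K)) : (Fin 3 → M) ≃ₗ[K] cube M where
  toFun u := ⟨fun i => (u i : P3 K), fun i _ => (u i).2⟩
  invFun v i := ⟨(v : Fin 3 → P3 K) i, v.2 i (Set.mem_univ i)⟩
  map_add' _ _ := rfl
  map_smul' _ _ := rfl
  left_inv _ := rfl
  right_inv _ := rfl

lemma finrank_cube (M : Submodule K (P3 K)) [FiniteDimensional K M] :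
    finrank K (cube M) = 3 * finrank K M := by
  rw [← (cubeEquiv M).finrank_eq, Module.finrank_pi_fintype]
  simp

instance finite_shiftPart (I : Ideal (P3 K)) (j p : ℕ) : Module.Finite K (shiftPart I j p) :=
  Submodule.finiteDimensional_of_le (S₂ := homogeneousSubmodule (Fin 3) K (j - p)) (by
    unfold shiftPart
    split_ifs
    · exact inf_le_left
    · exact bot_le)

instance finite_cube (M : Submodule K (P3 K)) [FiniteDimensional K M] :
    Module.Finite K (cube M) := Module.Finite.equiv (cubeEquiv M)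

section

variable {a : Fin 3 → ℕ} {T : ℕ → Finset (Fin 3 →₀ ℕ)}

/-- The three bounds from the two inequalities. -/
theorem betti_le_of (hT : IsLPP a I T)
    (hsh : ∀ d, (shadow (T d)).card ≤ finrank K ((cube (degPart d I)).map kos1))
    (hco : ∀ d, finrank K (colonPart I d) ≤ (colonSet T d).card) (j : ℕ) :
    betti1 I j ≤ betti1 (monI K T) j ∧ betti2 I j ≤ betti2 (monI K T) j ∧
      betti3 I j ≤ betti3 (monI K T) j := by
  have hdeg : ∀ d, ∀ e ∈ T d, e.degree = d := fun d => (hT d).1.1
  have hsucc : ∀ d, ∀ e ∈ T d, ∀ v, e + Finsupp.single v 1 ∈ T (d + 1) := fun d => (hT d).2.2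
  have hM : ∀ d, finrank K (degPart d (monI K T)) = finrank K (degPart d I) := fun d => by
    rw [degPart_monI hdeg hsucc, finrank_restrictSupport, (hT d).2.1]
  have hShift : ∀ p, finrank K (shiftPart (monI K T) j p) = finrank K (shiftPart I j p) := fun p => by
    rcases le_or_gt p j with h | h
    · rw [shiftPart_of_le h, shiftPart_of_le h, hM]
    · rw [shiftPart_of_lt h, shiftPart_of_lt h]
  have h1 : finrank K ((cube (shiftPart (monI K T) j 1)).map kos1) ≤
      finrank K ((cube (shiftPart I j 1)).map kos1) := by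
    rcases j with _ | d
    · rw [shiftPart_of_lt one_pos, shiftPart_of_lt one_pos]
    · rw [shiftPart_add, shiftPart_add, degPart_monI hdeg hsucc, map_kos1_restrictSupport,
        finrank_restrictSupport]
      exact hsh d
  have h2 : finrank K ↥(cube (shiftPart I j 2) ⊓ LinearMap.ker kos2) ≤
      finrank K ↥(cube (shiftPart (monI K T) j 2) ⊓ LinearMap.ker kos2) := by
    rcases Nat.lt_or_ge j 3 with h | h
    · have : cube (shiftPart I j 2) ⊓ LinearMap.ker kos2 = ⊥ := by
        rcases Nat.lt_or_ge j 2 with h' | h'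
        · rw [shiftPart_of_lt h', cube_bot, bot_inf_eq]
        · rw [shiftPart_of_le h', show j - 2 = 0 by omega, cube_inf_ker_zero]
      rw [this, finrank_bot]
      exact Nat.zero_le _
    · obtain ⟨d, rfl⟩ : ∃ d, j = d + 3 := ⟨j - 3, by omega⟩
      rw [shiftPart_of_le (by omega), shiftPart_of_le (by omega),
        show d + 3 - 2 = d + 1 by omega, cube_inf_ker, cube_inf_ker,
        ← (Submodule.equivMapOfInjective _ kos3_injective (colonPart I d)).finrank_eq,
        ← (Submodule.equivMapOfInjective _ kos3_injective (colonPart (monI K T) d)).finrank_eq,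
        colonPart_monI hdeg hsucc, finrank_restrictSupport]
      exact hco d
  have r1 := fun (L : Ideal (P3 K)) => finrank_map_add_ker (kos1 (K := K)) (cube (shiftPart L j 1))
  have r2 := fun (L : Ideal (P3 K)) => finrank_map_add_ker (kos2 (K := K)) (cube (shiftPart L j 2))
  have a1 := r1 I
  have b1 := r1 (monI K T)
  have a2 := r2 I
  have b2 := r2 (monI K T)
  rw [finrank_cube] at a1 b1 a2 b2
  rw [hShift] at b1 b2
  have e3 : ∀ L : Ideal (P3 K),
      finrank K ((shiftPart L j 3).map kos3) = finrank K (shiftPart L j 3) := fun L =>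
    ((Submodule.equivMapOfInjective _ kos3_injective _).finrank_eq).symm
  have s0 := hShift 0
  have s3 := hShift 3
  unfold betti1 betti2 betti3
  rw [e3 I, e3 (monI K T)]
  refine ⟨?_, ?_, ?_⟩ <;> omega

/-- Three forms: the lex-plus-powers ideal exists and has the largest Betti numbers. -/
theorem exists_lpp_betti {f : Fin 3 → P3 K} (h2 : ∀ i, 2 ≤ a i) (h01 : a 0 ≤ a 1)
    (h12 : a 1 ≤ a 2) (hf : ∀ i, (f i).IsHomogeneous (a i)) (hreg : RegList ⊥ [f 0, f 1, f 2])
    (hI : HomogI I) (hfI : ∀ i, f i ∈ I) :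
    ∃ T, IsLPP a I T ∧ ∀ j, betti1 I j ≤ betti1 (monI K T) j ∧
      betti2 I j ≤ betti2 (monI K T) j ∧ betti3 I j ≤ betti3 (monI K T) j := by
  obtain ⟨T, hT⟩ := exists_lpp3 h2 h01 h12 hf hreg hfI
  have hlpp : IsLPP a I T := fun d =>
    ⟨⟨(hT d).1, (hT d).2.1, (hT d).2.2.1⟩, (hT d).2.2.2.1, (hT d).2.2.2.2⟩
  exact ⟨T, hlpp, betti_le_of hlpp (shadow_le h2 h01 h12 hf hreg hfI hlpp)
    (colon_le h2 h01 h12 hf hreg hI hfI hlpp)⟩

end

end Vale.Agent.P200.LPP3
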