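import Vale.Agent.P200.Assemble
import Vale.Agent.P200.LPP3.Defs

/-!
Lex segments below powers, and monomial ideals built from them.
-/

namespace Vale.Agent.P200.LPP3

open MvPolynomial Module

/-- Contains the exponents outside the box and is a lex upper segment inside it. -/
def IsSeg (a : Fin 3 → ℕ) (d : ℕ) (U : Finset (Fin 3 →₀ ℕ)) : Prop :=
  (∀ e ∈ U, e.degree = d) ∧
  (∀ e : Fin 3 →₀ ℕ, e.degree = d → (∃ i, a i ≤ e i) → e ∈ U) ∧
  (∀ e ∈ U, ∀ e' : Fin 3 →₀ ℕ, e'.degree = d → (∀ i, e i < a i) → (∀ i, e' i < a i) →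
    toLex e < toLex e' → e' ∈ U)

lemma IsSeg.subset_of_card {a : Fin 3 → ℕ} {d : ℕ} {U V : Finset (Fin 3 →₀ ℕ)}
    (hU : IsSeg a d U) (hV : IsSeg a d V) (h : U.card ≤ V.card) : U ⊆ V := by
  by_contra hcon
  obtain ⟨e, heU, heV⟩ := Finset.not_subset.1 hcon
  have he : ∀ i, e i < a i := fun i => by
    by_contra h'
    exact heV (hV.2.1 e (hU.1 e heU) ⟨i, not_lt.1 h'⟩)
  have hsub : V ⊆ U := by
    intro e' he'
    by_cases hb : ∀ i, e' i < a i
    · rcases lt_trichotomy (toLex e) (toLex e') with hlt | heq | hgt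
      · exact hU.2.2 e heU e' (hV.1 e' he') he hb hlt
      · exact (toLex.injective heq) ▸ heU
      · exact absurd (hV.2.2 e' he' e (hU.1 e heU) hb he hgt) heV
    · push Not at hb
      exact hU.2.1 e' (hV.1 e' he') hb
  have := Finset.card_lt_card (Finset.ssubset_iff_of_subset hsub |>.2 ⟨e, heU, heV⟩)
  omega

lemma IsSeg.eq_of_card {a : Fin 3 → ℕ} {d : ℕ} {U V : Finset (Fin 3 →₀ ℕ)}
    (hU : IsSeg a d U) (hV : IsSeg a d V) (h : U.card = V.card) : U = V :=
  Finset.Subset.antisymm (hU.subset_of_card hV h.le) (hV.subset_of_card hU h.ge)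

lemma IsSeg.congr_bound {a a' : Fin 3 → ℕ} {d : ℕ} {U : Finset (Fin 3 →₀ ℕ)} (hU : IsSeg a d U)
    (h : ∀ i n, n ≤ d → (n < a i ↔ n < a' i)) : IsSeg a' d U := by
  have hle : ∀ e : Fin 3 →₀ ℕ, e.degree = d → ∀ i, e i ≤ d := fun e he i => by
    rw [← he]; exact Finsupp.le_degree i e
  refine ⟨hU.1, fun e hd ⟨i, hi⟩ => hU.2.1 e hd ⟨i, ?_⟩, fun e he e' hd' hb hb' hlt =>
    hU.2.2 e he e' hd' (fun i => (h i _ (hle e (hU.1 e he) i)).2 (hb i))
      (fun i => (h i _ (hle e' hd' i)).2 (hb' i)) hlt⟩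
  by_contra hc
  exact absurd ((h i _ (hle e hd i)).1 (not_le.1 hc)) (not_lt.2 hi)

/-- `T` gives in each degree the segment of the size of `I`, closed under the variables. -/
def IsLPP {K : Type*} [Field K] (a : Fin 3 → ℕ) (I : Ideal (P3 K))
    (T : ℕ → Finset (Fin 3 →₀ ℕ)) : Prop :=
  ∀ d, IsSeg a d (T d) ∧ (T d).card = finrank K (degPart d I) ∧
    ∀ e ∈ T d, ∀ v, e + Finsupp.single v 1 ∈ T (d + 1)

section Monomial

variable {K : Type*} [Field K]

/-- The monomial ideal of `T`. -/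
noncomputable def monI (K : Type*) [Field K] (T : ℕ → Finset (Fin 3 →₀ ℕ)) : Ideal (P3 K) :=
  Ideal.span ((fun e => monomial e (1 : K)) '' {e | ∃ d, e ∈ T d})

variable {T : ℕ → Finset (Fin 3 →₀ ℕ)} (hdeg : ∀ d, ∀ e ∈ T d, e.degree = d)
  (hsucc : ∀ d, ∀ e ∈ T d, ∀ v, e + Finsupp.single v 1 ∈ T (d + 1))

include hdeg hsucc in
lemma mem_of_le {d : ℕ} {e e' : Fin 3 →₀ ℕ} (he : e ∈ T d) (hle : e ≤ e') : e' ∈ T e'.degree := by
  obtain ⟨δ, rfl⟩ := le_iff_exists_add.1 hle
  clear hle
  suffices h : e + δ ∈ T (d + δ.degree) by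
    have := hdeg _ _ h
    rwa [this]
  induction δ using Finsupp.induction with
  | zero => simpa using he
  | single_add v n δ hk hn ih =>
    clear he hn
    induction n with
    | zero => simpa using ih
    | succ n ihn =>
      have h1 := hsucc _ _ ihn v
      rw [map_add, Finsupp.degree_single] at h1 ⊢
      rw [show d + (n + 1 + δ.degree) = d + (n + δ.degree) + 1 by omega, Finsupp.single_add,
        show e + (Finsupp.single v n + Finsupp.single v 1 + δ) =
          e + (Finsupp.single v n + δ) + Finsupp.single v 1 by abel]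
      exact h1

include hdeg hsucc in
lemma degPart_monI (d : ℕ) :
    degPart d (monI K T) = restrictSupport K (↑(T d) : Set (Fin 3 →₀ ℕ)) := by
  ext u
  rw [mem_degPart, mem_restrictSupport_iff, monI, mem_ideal_span_monomial_image]
  constructor
  · rintro ⟨h1, h2⟩ e he
    obtain ⟨e0, ⟨d0, he0⟩, hle⟩ := h2 e he
    have hd : e.degree = d := by
      by_contra hne
      exact (MvPolynomial.mem_support_iff.1 he) (h1.coeff_eq_zero hne)
    exact hd ▸ mem_of_le hdeg hsucc he0 hle
  · intro h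
    refine ⟨fun e he => ?_, fun e he => ⟨e, ⟨d, h he⟩, le_rfl⟩⟩
    have := hdeg d e (h (MvPolynomial.mem_support_iff.2 he))
    rw [Finsupp.degree_eq_weight_one] at this
    exact this

lemma homogI_monI : HomogI (monI K T) := by
  classical
  intro u hu t
  rw [monI, mem_ideal_span_monomial_image] at hu ⊢
  intro e he
  refine hu e ?_
  rw [MvPolynomial.mem_support_iff] at he ⊢
  rw [coeff_homogeneousComponent] at he
  split_ifs at he with h
  · exact he
  · exact absurd rfl he

lemma finrank_restrictSupport (U : Finset (Fin 3 →₀ ℕ)) :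
    finrank K (restrictSupport K (↑U : Set (Fin 3 →₀ ℕ))) = U.card := by
  rw [Module.finrank_eq_nat_card_basis (basisRestrictSupport K _)]
  simp

/-- The exponents one step above `U`. -/
noncomputable def shadow (U : Finset (Fin 3 →₀ ℕ)) : Finset (Fin 3 →₀ ℕ) :=
  U.biUnion fun e => Finset.univ.image fun v => e + Finsupp.single v 1

lemma kos1_single (v : Fin 3) (p : P3 K) : kos1 (Pi.single v p) = X v * p := by
  fin_cases v <;> simp [kos1]

lemma kos1_eq_sum (u : Fin 3 → P3 K) : kos1 u = ∑ v, X v * u v := by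
  simp [kos1, Fin.sum_univ_three]

lemma map_kos1_restrictSupport (U : Finset (Fin 3 →₀ ℕ)) :
    (cube (restrictSupport K (↑U : Set (Fin 3 →₀ ℕ)))).map kos1 =
      restrictSupport K (↑(shadow U) : Set (Fin 3 →₀ ℕ)) := by
  classical
  refine le_antisymm ?_ fun w hw => ?_
  · rintro _ ⟨u, hu, rfl⟩
    rw [kos1_eq_sum]
    refine sum_mem fun v _ => ?_
    rw [mem_restrictSupport_iff]
    intro e he
    have hv := (mem_restrictSupport_iff K).1 (hu v (Set.mem_univ v))
    rw [Finset.mem_coe, support_X_mul, Finset.mem_map] at he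
    obtain ⟨e0, he0, rfl⟩ := he
    exact Finset.mem_biUnion.2 ⟨e0, hv he0, Finset.mem_image.2 ⟨v, Finset.mem_univ _, by
      simp [addLeftEmbedding, add_comm]⟩⟩
  · rw [w.as_sum]
    refine sum_mem fun e he => ?_
    obtain ⟨e0, he0, hv⟩ := Finset.mem_biUnion.1 ((mem_restrictSupport_iff K).1 hw he)
    obtain ⟨v, -, rfl⟩ := Finset.mem_image.1 hv
    refine ⟨Pi.single v (monomial e0 (coeff (e0 + Finsupp.single v 1) w)), fun i _ => ?_, ?_⟩
    · simp only [SetLike.mem_coe]
      rcases eq_or_ne i v with rfl | hne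
      · rw [Pi.single_eq_same, mem_restrictSupport_iff]
        exact fun x hx => by
          rw [Finset.mem_singleton.1 (support_monomial_subset hx)]; exact he0
      · rw [Pi.single_eq_of_ne hne]; exact zero_mem _
    · rw [kos1_single, X, monomial_mul, one_mul, add_comm]

end Monomial

end Vale.Agent.P200.LPP3
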